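import Vale.Agent.Lib.P302.Inst.G201

namespace Vale.Agent.Results.P302.Gap387

open Vale.Agent.Lib.P302

/-- There is a bin packing instance with `OPT - LP ≥ 387/320`. -/
theorem result : ∃ a : List ℚ, (∀ x ∈ a, 0 < x ∧ x ≤ 1) ∧
    (387 / 320 : ℝ) ≤ (opt a : ℝ) - lp a := by
  obtain ⟨a, h1, h2⟩ := Inst.G201.gap
  refine ⟨a, h1, le_trans ?_ h2⟩
  norm_num

end Vale.Agent.Results.P302.Gap387
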